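import Vale.Agent.P304.H328.Main

open MeasureTheory
open scoped ENNReal NNReal

namespace Vale.Agent.Results.P304.UnknownMetric

open Vale.Agent.P304 Vale.Agent.P304.H328

/-- **The randomized `k`-server ratio is polylogarithmic in `k`, by one policy for all metric
spaces, which need not be known in advance.** There is an absolute constant `C` such that for every
`k ≥ 1`
* `R k ≤ C (1 + log k) ^ 4 (1 + log (1 + log k))`;
* `R k ≤ C (1 + log k) ^ 2 (1 + log (1 + log k)) ((1 + log k) ^ 2 + Rult k)`, where `Rult k` is the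
  supremum of the ratio over finite ultrametric spaces, and `Rult k ≤ C (1 + log k) ^ 2`;
* the supremum in `R k` is attained: `R k` is the ratio of the space of bounded sequences;
* the best constant `R k` is attained by ONE randomized policy for all metric spaces `X`, all
  starting positions `s` and all request sequences `σ`; the server which serves the `n`-th request
  is a function of the matrix of the distances between the start of the first server and the first
  `n` requests (nothing else about `X` and `s` is used). Its expected cost is at most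
  `R k * opt s σ + (1 + R k) * ∑ i, dist (s i) (s 0)`; so there is no additive constant when all
  servers start at one point. -/
theorem result : ∃ C : ℝ, 0 < C ∧ ∀ (k : ℕ) (hk : 0 < k),
    R k ≤ ENNReal.ofReal (C * ((1 + Real.log k) ^ 4 * (1 + Real.log (1 + Real.log k)))) ∧
    R k ≤ ENNReal.ofReal (C * ((1 + Real.log k) ^ 2 * (1 + Real.log (1 + Real.log k)))) *
      (ENNReal.ofReal ((1 + Real.log k) ^ 2) + Rult k) ∧
    Rult k ≤ ENNReal.ofReal (C * (1 + Real.log k) ^ 2) ∧
    R k = ratio (fun _ : Fin k => (0 : lp (fun _ : ℕ => ℝ) ∞)) ∧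
    ∃ (Ω : Type) (_ : MeasurableSpace Ω) (P : Measure Ω)
      (A : Ω → (n : ℕ) → (Fin (n + 1) → Fin (n + 1) → ℝ) → Fin k),
      IsProbabilityMeasure P ∧ (∀ n M, Measurable fun ω => A ω n M) ∧
        ∀ (X : Type) [MetricSpace X] (s : Fin k → X) (σ : List X),
          Integrable (fun ω => policyCost s
            (fun h => A ω h.length (distMatrix (s ⟨0, hk⟩) h)) σ) P ∧
          ∫ ω, policyCost s (fun h => A ω h.length (distMatrix (s ⟨0, hk⟩) h)) σ ∂P ≤
            (R k).toReal * opt s σ + (1 + (R k).toReal) * ∑ i, dist (s i) (s ⟨0, hk⟩) := by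
  obtain ⟨C₁, hC₁, h₁⟩ := Dyn.R_le_log4
  obtain ⟨C₂, hC₂, h₂⟩ := Dyn.R_le_mix'
  obtain ⟨C₃, hC₃, h₃⟩ := HST.exists_Rult_le
  refine ⟨C₁ + C₂ + C₃, by positivity, fun k hk => ?_⟩
  have : NeZero k := ⟨hk.ne'⟩
  have hlog : 0 ≤ Real.log k := Real.log_nonneg (by exact_mod_cast hk)
  have hL : (0 : ℝ) ≤ 1 + Real.log k := by linarith
  have hll : 0 ≤ Real.log (1 + Real.log k) := Real.log_nonneg (by linarith)
  have hK4 : 0 ≤ (1 + Real.log k) ^ 4 * (1 + Real.log (1 + Real.log k)) := by positivity
  have hK2 : 0 ≤ (1 + Real.log k) ^ 2 * (1 + Real.log (1 + Real.log k)) := by positivity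
  have hR := h₁ k hk
  have hfin : R k ≠ ⊤ := ne_top_of_le_ne_top ENNReal.ofReal_ne_top hR
  refine ⟨?_, ?_, ?_, R_eq_Linf, ?_⟩
  · refine hR.trans (ENNReal.ofReal_le_ofReal (mul_le_mul_of_nonneg_right ?_ hK4))
    linarith
  · refine (h₂ k hk).trans (mul_le_mul_left (ENNReal.ofReal_le_ofReal
      (mul_le_mul_of_nonneg_right ?_ hK2)) _)
    linarith
  · refine (h₃ k hk).trans (ENNReal.ofReal_le_ofReal (mul_le_mul_of_nonneg_right ?_ (by positivity)))
    linarith
  · obtain ⟨Ω, m, P, A, hP, hA, hc⟩ := exists_universal hk hfin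
    exact ⟨Ω, m, P, A, hP, hA, fun X _ s σ =>
      ⟨integrable_policyCost (A := fun ω h => A ω h.length (distMatrix (s ⟨0, hk⟩) h))
        (fun h => hA _ _) s σ, hc X s σ⟩⟩

end Vale.Agent.Results.P304.UnknownMetric
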